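import Vale.Agent.P181.GK.Defs2
import Vale.Agent.P181.H530.Zero

set_option autoImplicit false

/-!
# P181, GK: `TwoLongG` from `CoreG`, `NumG` and `TwoLongC` from `CoreG`, `NumC`
-/

namespace Vale.Agent.P181.GK.H627

open Vale.Agent.P181.H280 (plethMult)
open Vale.Agent.P181.SZ (tl)

/-- The polylog theorem (`PLX.poly_result`). -/
def PLH : Prop := ∃ (C : ℝ) (c : ℕ), ∀ a b : ℕ, C * a * (1 + Real.log a) ^ c ≤ b →
  ∀ (n : ℕ) (lam : Fin n → ℕ), plethMult a b n lam ≤ plethMult b a n lam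

/-- Few boxes below row two. -/
def FewH : Prop := ∀ (a b k : ℕ) (lam : Fin (k + 2) → ℕ), 2 ≤ a → TL.dn2 lam + a ≤ b + 1 →
  plethMult a b (k + 2) lam ≤ plethMult b a (k + 2) lam

lemma one_le_L (a : ℕ) : 1 ≤ 1 + Real.log a := by
  have : 0 ≤ Real.log a := Real.log_natCast_nonneg a
  linarith

lemma forty {a b n : ℕ} {lam : Fin (n + 2) → ℕ} (hanti : Antitone lam)
    (hsum : ∑ i, lam i = a * b) (h : 20000 * TL.dn2 lam ≤ lam 1) :
    40000 * TL.dn2 lam ≤ a * b := by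
  have h1 : lam 1 ≤ lam 0 := hanti (Fin.zero_le _)
  have h2 : ∑ i, lam i = lam 0 + (lam 1 + TL.dn2 lam) := by
    rw [Fin.sum_univ_succ, Fin.sum_univ_succ]
    rfl
  omega

/-- **(FIN)** -/
theorem twoLongG (hC : CoreG) (hN : NumG) (hP : PLH) : TwoLongG := by
  obtain ⟨N0, a₀, hcore⟩ := hC
  obtain ⟨C', c', hpl⟩ := hP
  obtain ⟨C, c, hC0, hc0, hnum⟩ := hN N0 a₀ (|C'| + 1) c' (by positivity) (Nat.cast_nonneg _)
  refine ⟨C, c, hC0, hc0, fun a b n lam hanti hsum ha hab ht hlam hw => ?_⟩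
  by_cases hb : C' * a * (1 + Real.log a) ^ c' ≤ b
  · exact hpl a b hb _ lam
  push Not at hb
  have hL := one_le_L a
  have hb2 : (b : ℝ) ≤ (|C'| + 1) * (1 + Real.log a) ^ (c' : ℝ) * a := by
    rw [Real.rpow_natCast]
    have h1 : 0 ≤ (1 + Real.log a) ^ c' := by positivity
    have h2 : (0 : ℝ) ≤ a := Nat.cast_nonneg a
    have h3 : C' ≤ |C'| + 1 := (le_abs_self C').trans (by linarith)
    have h4 : C' * (a * (1 + Real.log a) ^ c') ≤ (|C'| + 1) * (a * (1 + Real.log a) ^ c') :=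
      mul_le_mul_of_nonneg_right h3 (mul_nonneg h2 h1)
    nlinarith
  obtain ⟨A, k', c1, s, q, m, X, w, P⟩ := hnum a b (TL.dn2 lam) ha hab hb2 ht
    (forty hanti hsum hlam)
  exact hcore a b n A k' c1 s q m X w lam hanti hsum hw (by omega) (by omega) P

/-- **(FIN2)** -/
theorem twoLongC (hC : CoreG) (hN : NumC) (hP : PLH) (hF : FewH) : TwoLongC := by
  obtain ⟨N0, a₀, hcore⟩ := hC
  obtain ⟨C', c', hpl⟩ := hP
  obtain ⟨C, a₁, hnum⟩ := hN N0 a₀ (|C'| + 1) c' (by positivity) (Nat.cast_nonneg _)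
  obtain ⟨D, hD⟩ : ∃ D : ℕ, ∀ a : ℕ, a ≤ a₁ + 2 → C' * (1 + Real.log a) ^ c' ≤ D := by
    obtain ⟨D, hD⟩ := exists_nat_ge (|C'| * (1 + Real.log (a₁ + 2 : ℕ)) ^ c')
    refine ⟨D, fun a ha => le_trans ?_ hD⟩
    have hL := one_le_L a
    have h1 : Real.log a ≤ Real.log (a₁ + 2 : ℕ) := by
      rcases Nat.eq_zero_or_pos a with h0 | h0
      · rw [h0, Nat.cast_zero, Real.log_zero]
        exact Real.log_natCast_nonneg _
      · exact Real.log_le_log (by exact_mod_cast h0) (by exact_mod_cast ha)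
    calc C' * (1 + Real.log a) ^ c' ≤ |C'| * (1 + Real.log a) ^ c' :=
          mul_le_mul_of_nonneg_right (le_abs_self _) (by positivity)
      _ ≤ |C'| * (1 + Real.log (a₁ + 2 : ℕ)) ^ c' := by gcongr
  refine ⟨C + D + 100, fun a b n lam hab hlam hw => ?_⟩
  by_cases hz : plethMult a b (n + 2) lam = 0
  · rw [hz]
    exact Nat.zero_le _
  obtain ⟨hanti, hsum, -⟩ := H530.zero_stmt a b (n + 2) lam hz
  by_cases hb : C' * a * (1 + Real.log a) ^ c' ≤ b
  · exact hpl a b hb _ lam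
  have haa : a₁ + 2 < a := by
    by_contra hcon
    apply hb
    have h1 := hD a (by omega)
    have h2 : (D : ℝ) * a ≤ b := by
      have : D * a ≤ b := le_trans (Nat.mul_le_mul_right _ (by omega)) hab
      exact_mod_cast this
    have h3 : (0 : ℝ) ≤ a := Nat.cast_nonneg a
    calc C' * a * (1 + Real.log a) ^ c' = C' * (1 + Real.log a) ^ c' * a := by ring
      _ ≤ D * a := mul_le_mul_of_nonneg_right h1 h3
      _ ≤ b := h2
  by_cases hfew : TL.dn2 lam + a ≤ b + 1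
  · exact hF a b n lam (by omega) hfew
  push Not at hb
  have hL := one_le_L a
  have hb2 : (b : ℝ) ≤ (|C'| + 1) * (1 + Real.log a) ^ (c' : ℝ) * a := by
    rw [Real.rpow_natCast]
    have h1 : 0 ≤ (1 + Real.log a) ^ c' := by positivity
    have h2 : (0 : ℝ) ≤ a := Nat.cast_nonneg a
    have h3 : C' ≤ |C'| + 1 := (le_abs_self C').trans (by linarith)
    have h4 : C' * (a * (1 + Real.log a) ^ c') ≤ (|C'| + 1) * (a * (1 + Real.log a) ^ c') :=
      mul_le_mul_of_nonneg_right h3 (mul_nonneg h2 h1)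
    nlinarith
  have hCb : C * a ≤ b := le_trans (Nat.mul_le_mul_right _ (by omega)) hab
  have h100 : 100 * a ≤ b := le_trans (Nat.mul_le_mul_right _ (by omega)) hab
  obtain ⟨A, k', c1, s, q, m, X, w, P⟩ := hnum a b (TL.dn2 lam) (by omega) hCb (by omega) hb2
    (forty hanti hsum hlam)
  exact hcore a b n A k' c1 s q m X w lam hanti hsum hw (by omega) (by omega) P

end Vale.Agent.P181.GK.H627
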