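import Vale.Agent.P181.GK.H627.CoreC
import Vale.Agent.P181.GK.H627.Fin
import Vale.Agent.P181.GK.H694.Num
import Vale.Agent.P181.TL.H976.Plug

set_option autoImplicit false

/-!
# P181, GK: two long rows, possibly equal, no hypothesis left
-/

namespace Vale.Agent.P181.GK.H627

/-- **(FIN)**, closed: `b ≥ 100 a`, `D_2 ≥ C (1 + log a)^c a`, `20000 D_2 ≤ λ_2`,
`a b ≤ 4 (λ_2 + λ_3 + ...)`: Foulkes for all `V`, equal long rows included. -/
theorem twoLongG_closed : TwoLongG := twoLongG coreG H694.numG TL.H976.nearLin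

end Vale.Agent.P181.GK.H627
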