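import Vale.Agent.P181.GK.H627.All
import Vale.Agent.P181.GK.H487.Num2

set_option autoImplicit false

/-!
# P181, GK: two long rows, possibly equal, `b ≥ C a`, no hypothesis left
-/

namespace Vale.Agent.P181.GK.H627

/-- **(FIN2)**, closed: `b ≥ C a`, `20000 D_2 ≤ λ_2`, `a b ≤ 4 (λ_2 + λ_3 + ...)`: Foulkes for all
`V` and every number of boxes below row two, equal long rows included. -/
theorem twoLongC_closed : TwoLongC :=
  twoLongC coreG H487.numC TL.H976.nearLin TL.H976.fewTwo

end Vale.Agent.P181.GK.H627
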