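import Vale.Agent.P181.GK.Defs

set_option autoImplicit false

/-!
# P181, GK: `CoreG` from `UpB`, `BalB`, `LowG`, `GapKill`, `FillG`
-/

namespace Vale.Agent.P181.GK.H627

open Vale.Agent.P181.T4 (HW)
open Vale.Agent.P181.H280 (plethMult)
open Vale.Agent.P181.SZ (tl)
open Vale.Agent.P181.VT

lemma sum_bal (a t : ℕ) (ha : 0 < a) :
    ∑ i : Fin a, (t / a + if (i : ℕ) < t % a then 1 else 0) = t := by
  rw [Finset.sum_add_distrib, Finset.sum_const, Finset.card_univ, Fintype.card_fin, smul_eq_mul]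
  have h1 : ∑ i : Fin a, (if (i : ℕ) < t % a then 1 else 0) = t % a := by
    rw [Finset.sum_boole, Fin.card_filter_val_lt]
    exact min_eq_right (Nat.mod_lt _ ha).le
  rw [h1]
  exact Nat.div_add_mod t a

lemma sum_tl {n : ℕ} (lam : Fin (n + 2) → ℕ) : ∑ i, tl lam i = lam 1 + TL.dn2 lam := by
  rw [Fin.sum_univ_succ]
  rfl

lemma t_le_w {a q m t w : ℕ} (ha : 0 < a) (hq : 2 ≤ q)
    (h : q * a * (2 * (t / a / q) + q + q * (a / m) + q) +
      4 * (2 * (t / a / q) + q) * q * a ≤ w) : t ≤ w := by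
  have e1 : t < a * (t / a + 1) := Nat.lt_mul_div_succ t ha
  have e2 : t / a < q * (t / a / q + 1) := Nat.lt_mul_div_succ (t / a) (by omega)
  have e3 : t / a + 1 ≤ q * (t / a / q + 1) := e2
  have e4 : a * (t / a + 1) ≤ a * (q * (t / a / q + 1)) := Nat.mul_le_mul_left _ e3
  have e5 : a * (q * (t / a / q + 1)) ≤ q * a * (2 * (t / a / q) + q + q * (a / m) + q) := by
    have : a * (q * (t / a / q + 1)) = q * a * (t / a / q + 1) := by ring
    rw [this]
    exact Nat.mul_le_mul_left _ (by omega)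
  exact (e1.le.trans e4).trans (e5.trans ((Nat.le_add_right _ _).trans h))

lemma w_le {a q A B w : ℕ} (hA0 : 0 < A) (h : 3 * q * a + 3 * (w / A) + 3 ≤ B) :
    w ≤ A * B := by
  have e1 : w < A * (w / A + 1) := Nat.lt_mul_div_succ w hA0
  have e2 : w / A + 1 ≤ B := by omega
  exact e1.le.trans (Nat.mul_le_mul_left _ e2)

lemma weight {k' N0 N1 A B c s t : ℕ} (hN : 5 * N0 = 2 * N1) (hB : B = k' * 5)
    (htA : t ≤ A * B) (al : A * B + 2 * s = B * c + t) :
    B * (A + 5 * c + N0) = 2 * (3 * (A * B - t) + 5 * s + k' * N1) + t := by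
  have e1 : B * (A + 5 * c + N0) = A * B + 5 * (B * c) + B * N0 := by ring
  have e3 : B * N0 = 2 * (k' * N1) := by
    calc B * N0 = k' * (5 * N0) := by rw [hB]; ring
      _ = k' * (2 * N1) := by rw [hN]
      _ = 2 * (k' * N1) := by ring
  rw [e1, e3]
  generalize A * B = x at *
  generalize B * c = y at *
  generalize k' * N1 = z at *
  omega

lemma fill_ineq {a b B Af W t l1 : ℕ} (hA : Af ≤ a) (hB : 4 * B ≤ b) (hb : 100 ≤ b)
    (h : B * Af = 2 * W + t) (hw : a * b ≤ 4 * (l1 + t)) (ht : 1000 * t ≤ l1) :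
    W + B * (a - Af) / 2 + 9 * a ≤ l1 := by
  have e2 : 2 * (B * (a - Af) / 2) ≤ B * (a - Af) := Nat.mul_div_le _ _
  have e3 : B * (a - Af) + B * Af = B * a := by
    rw [← mul_add]
    congr 1
    omega
  have e4 : 4 * (B * a) ≤ a * b := by
    have := Nat.mul_le_mul_right a hB
    calc 4 * (B * a) = 4 * B * a := by ring
      _ ≤ b * a := this
      _ = a * b := by ring
  have e5 : 100 * a ≤ a * b := by
    calc 100 * a ≤ b * a := Nat.mul_le_mul_right a hb
      _ = a * b := by ring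
  generalize B * (a - Af) / 2 = x at *
  generalize B * (a - Af) = x2 at *
  generalize B * Af = x3 at *
  generalize B * a = x4 at *
  generalize a * b = x5 at *
  omega

theorem core (h1 : TL.UpB) (h2 : TL.BalB) (h3 : LowG) (h4 : GapKill) (h5 : FillG) : CoreG := by
  obtain ⟨N0, N1, hN, hG⟩ := h4
  obtain ⟨a₀, hF⟩ := h5
  refine ⟨N0, a₀, fun a b n A k' c s q m X w lam hanti hsum hw hb hlam P => ?_⟩
  obtain ⟨t, ht⟩ : ∃ t, t = TL.dn2 lam := ⟨_, rfl⟩
  rw [← ht] at P hlam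
  have htau : ∑ i : Fin n, lam i.succ.succ = t := by rw [ht]; rfl
  obtain ⟨B, hB⟩ : ∃ B, B = k' * nn 1 := ⟨_, rfl⟩
  have pal := P.al
  have pfB := P.fB
  have pfb := P.fb
  have ppar := P.par
  have pszB := P.szB
  have pgain := P.gain
  rw [← hB] at pal pfB pfb ppar pszB pgain
  have ha := P.ha
  have hA0 : 0 < A := by
    have := P.szA
    have := P.hq
    omega
  have htw : t ≤ w := t_le_w ha P.hq P.szw
  have hwAB : w ≤ A * B := w_le hA0 pszB
  obtain ⟨f, hf⟩ : ∃ f : Fin a → ℕ, f = fun i : Fin a =>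
    t / a + if (i : ℕ) < t % a then 1 else 0 := ⟨_, rfl⟩
  have hfb : ∀ i j, f i ≤ f j + 1 := by
    intro i j
    rw [hf]
    dsimp only
    split_ifs <;> omega
  have hfs : ∑ i, f i = ∑ i : Fin n, lam i.succ.succ := by
    rw [htau, hf]
    exact sum_bal a t ha
  have g1 := h1 a b n lam
  have g2 := h2 n a (fun i => lam i.succ.succ) f ha hfb hfs
  rw [htau] at g2
  have g3 := h3 a A B n q m X w (fun i => lam i.succ.succ) f ha P.hA P.hq P.hm P.hX
    (by rw [htau]; exact P.key) (by intro i; rw [htau, hf]) (by rw [htau]; exact P.szA)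
    (by rw [htau]; exact P.szw) pszB
  rw [htau] at g3
  obtain ⟨lam', hlam'⟩ : ∃ lam' : Fin (n + 2) → ℕ,
    lam' = Fin.cons (A * B - w) (Fin.cons (w - t) fun i : Fin n => lam i.succ.succ) := ⟨_, rfl⟩
  have l01 : lam' 0 + lam' 1 = A * B - t := by
    have l0 : lam' 0 = A * B - w := by rw [hlam']; rfl
    have l1 : lam' 1 = w - t := by rw [hlam']; rfl
    rw [l0, l1]
    generalize A * B = x at *
    omega
  have hal : lam' 0 + lam' 1 + 2 * s = k' * nn 1 * c := by
    rw [l01, ← hB]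
    have htA := htw.trans hwAB
    generalize A * B = x at *
    generalize B * c = y at *
    omega
  have g4 := hG k' c s A n lam' P.hk P.hs hal
  have hwt : ∀ x : ℕ, wt2 x x lam' = wt2 x x lam := by
    intro x
    rw [hlam']
    rfl
  rw [hwt, l01] at g4
  rw [← hlam'] at g3
  rw [← hB] at g4
  obtain ⟨W, hW⟩ : ∃ W, W = 3 * (A * B - t) + 5 * s + k' * N1 := ⟨_, rfl⟩
  obtain ⟨Af, hAf⟩ : ∃ Af, Af = A + nn 1 * c + N0 := ⟨_, rfl⟩
  rw [← hW, ← hAf] at g4
  have hBW : B * Af = 2 * W + t := by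
    rw [hAf, hW]
    exact weight hN hB (htw.trans hwAB) pal
  have hfa : Af + a₀ ≤ a := by
    rw [hAf]
    exact P.fa
  have hg5 : W + B * (a - Af) / 2 + 9 * a ≤ lam 1 := by
    rw [sum_tl, ← ht] at hw
    exact fill_ineq (le_of_add_le_left hfa) pfb hb hBW hw hlam
  have hBb : B ≤ b := le_trans (Nat.le_mul_of_pos_left B (by norm_num)) pfb
  have hanti1 : lam 1 ≤ lam 0 := hanti (Fin.zero_le _)
  have g5 := hF a b B Af W n lam hanti1 hsum hfa pfB hBb
    (by rw [htau]; exact hBW) (by rw [htau]; exact ppar) hg5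
  -- the chain
  obtain ⟨K, hK⟩ : ∃ K, K = Module.finrank ℂ (TL.KK n (Fin a) f fun i => lam i.succ.succ) :=
    ⟨_, rfl⟩
  rw [← hK] at g2 g3
  have c1 : plethMult a b (n + 2) lam ≤ (a + b).choose a * ((a + t - 1).choose t * K) :=
    g1.trans (Nat.mul_le_mul_left _ g2)
  have c2 : (B * c + 1) ^ 4 * plethMult a b (n + 2) lam ≤
      (B * c + 1) ^ 4 * plethMult b a (n + 2) lam := by
    calc (B * c + 1) ^ 4 * plethMult a b (n + 2) lam
        ≤ (B * c + 1) ^ 4 * ((a + b).choose a * ((a + t - 1).choose t * K)) :=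
          Nat.mul_le_mul_left _ c1
      _ = (a + b).choose a * (a + t - 1).choose t * (B * c + 1) ^ 4 * K := by ring
      _ ≤ X ^ ((q - 1) * a) * K := Nat.mul_le_mul_right _ pgain
      _ ≤ plethMult B A (n + 2) lam' := g3
      _ ≤ (B * c + 1) ^ 4 * plethMult B Af (n + 2) (wt2 W W lam) := g4
      _ ≤ (B * c + 1) ^ 4 * plethMult b a (n + 2) lam := Nat.mul_le_mul_left _ g5
  exact Nat.le_of_mul_le_mul_left c2 (pow_pos (Nat.succ_pos _) 4)

end Vale.Agent.P181.GK.H627
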