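import Vale.Agent.P181.GK.H627.Core
import Vale.Agent.P181.GK.H487.G7
import Vale.Agent.P181.GK.H312.G2
import Vale.Agent.P181.GK.H352.G3
import Vale.Agent.P181.GK.H679.G6
import Vale.Agent.P181.GK.H809.Fil
import Vale.Agent.P181.GK.H435.Pad
import Vale.Agent.P181.GK.H43.LowFin
import Vale.Agent.P181.GK.H908.Siz
import Vale.Agent.P181.TL.H214.UpB
import Vale.Agent.P181.TL.H639.BalB

set_option autoImplicit false

/-!
# P181, GK: the core theorem, no hypothesis left
-/

namespace Vale.Agent.P181.GK.H627

/-- **(COR)**, closed: the gap killer, the upper bound, the lower bound and the filling combined. -/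
theorem coreG : CoreG :=
  core TL.H214.upB TL.H639.balB (H43.low_of H908.siz)
    (H487.gapKill_of H312.g2 H352.g3 H679.g6) (H809.fill H435.padPos)

end Vale.Agent.P181.GK.H627
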